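import Vale.Agent.Lib.P310.Glue

namespace Vale.Agent.Lib.P310

variable {Q Γ : Type}

open Finset

theorem card_short_lists {ι : Type} [Fintype ι] [Fintype Q] (f : ι → List Q)
    (hf : Function.Injective f) (ℓ : ℕ) :
    (univ.filter (fun X => (f X).length ≤ ℓ)).card ≤ (Fintype.card Q + 1) ^ ℓ := by
  classical
  have h : (univ.filter (fun X => (f X).length ≤ ℓ)).card
      ≤ (univ : Finset (Fin ℓ → Option Q)).card := by
    apply Finset.card_le_card_of_injOn (fun X => fun i : Fin ℓ => (f X)[i.val]?)
    · intro X _; exact Finset.mem_coe.2 (Finset.mem_univ _)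
    · intro X hX Y hY hXY
      simp only [Finset.mem_coe, Finset.mem_filter, Finset.mem_univ, true_and] at hX hY
      apply hf
      apply List.ext_getElem?
      intro i
      by_cases hi : i < ℓ
      · exact congrFun hXY ⟨i, hi⟩
      · rw [List.getElem?_eq_none (by omega), List.getElem?_eq_none (by omega)]
  rw [Finset.card_univ, Fintype.card_fun, Fintype.card_option, Fintype.card_fin] at h
  exact h

/-- The crossing-sequence lower bound: if the machine accepts each member of a family of tapes
within `T` steps but accepts no tape glued from two different members along any boundary in `J`,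
then `T` is large. -/
theorem TM.fooling {ι : Type} [Fintype ι] [Fintype Q] (M : TM Q Γ) (τ : ι → ℤ → Γ) (J : Finset ℤ)
    (T ℓ : ℕ) (hJ : ∀ j ∈ J, 0 ≤ j)
    (hacc : ∀ X, ∃ t q, t ≤ T ∧ M.HaltsIn t (M.init (τ X)) q ∧ M.accept q)
    (hrej : ∀ X Y, X ≠ Y → ∀ j ∈ J, ∀ σ : ℤ → Γ, (∀ i, i ≤ j → σ i = τ X i) →
      (∀ i, j < i → σ i = τ Y i) → ∀ t q, M.HaltsIn t (M.init σ) q → ¬ M.accept q)
    (hℓ : 2 * (Fintype.card Q + 1) ^ ℓ ≤ Fintype.card ι) :
    (ℓ + 1) * J.card ≤ 2 * T := by
  classical
  choose t q ht hh hq using hacc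
  set f : ℤ → ι → List Q := fun j X => M.cross j (t X) (M.init (τ X)) with hf
  have hinj : ∀ j ∈ J, Function.Injective (f j) := by
    intro j hj X Y hXY
    by_contra hne
    have h0 : side j 0 = true := by simp [side, hJ j hj]
    obtain ⟨tg, qg, hg, hor⟩ := M.glue j (t X + t Y + 1) (t X) (t Y) true (M.init (τ X))
      (M.init (τ Y)) (M.init (fun i => if i ≤ j then τ X i else τ Y i)) (q X) (q Y) (by omega)
      (hh X) (hh Y) h0 h0 rfl rfl
      (fun i hi => by
        have : i ≤ j := by simpa [side] using hi
        simp [TM.init, this])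
      (fun i hi => by
        have : ¬ i ≤ j := by simpa [side] using hi
        simp [TM.init, this])
      hXY
    refine hrej X Y hne j hj _ (fun i hi => by simp [hi]) (fun i hi => ?_) tg qg hg ?_
    · have : ¬ i ≤ j := by omega
      simp [this]
    · rcases hor with h | h
      · rw [h]; exact hq X
      · rw [h]; exact hq Y
  set K := (Fintype.card Q + 1) ^ ℓ with hK
  have hKpos : 0 < K := by positivity
  have hlow : ∀ j ∈ J, (ℓ + 1) * (Fintype.card ι - K) ≤ ∑ X, (f j X).length := by
    intro j hj
    have hB := card_short_lists (f j) (hinj j hj) ℓ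
    have hcompl : (univ.filter (fun X => ¬ (f j X).length ≤ ℓ)).card
        = Fintype.card ι - (univ.filter (fun X => (f j X).length ≤ ℓ)).card := by
      have := Finset.card_filter_add_card_filter_not (s := (univ : Finset ι))
        (fun X => (f j X).length ≤ ℓ)
      rw [Finset.card_univ] at this
      omega
    calc (ℓ + 1) * (Fintype.card ι - K)
        ≤ (ℓ + 1) * (univ.filter (fun X => ¬ (f j X).length ≤ ℓ)).card := by
          apply Nat.mul_le_mul_left
          rw [hcompl]
          omega
      _ = ∑ X ∈ univ.filter (fun X => ¬ (f j X).length ≤ ℓ), (ℓ + 1) := by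
          rw [Finset.sum_const, smul_eq_mul, Nat.mul_comm]
      _ ≤ ∑ X ∈ univ.filter (fun X => ¬ (f j X).length ≤ ℓ), (f j X).length := by
          apply Finset.sum_le_sum
          intro X hX
          simp only [Finset.mem_filter, Finset.mem_univ, true_and, not_le] at hX
          omega
      _ ≤ ∑ X, (f j X).length := by
          apply Finset.sum_le_sum_of_subset
          exact Finset.filter_subset _ _
  have hup : ∑ j ∈ J, ∑ X, (f j X).length ≤ Fintype.card ι * T := by
    rw [Finset.sum_comm]
    calc ∑ X, ∑ j ∈ J, (f j X).length ≤ ∑ X : ι, T := by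
          apply Finset.sum_le_sum
          intro X _
          exact (M.sum_cross_le J (t X) _).trans (ht X)
      _ = Fintype.card ι * T := by rw [Finset.sum_const, Finset.card_univ, smul_eq_mul]
  have hlow' : J.card * ((ℓ + 1) * (Fintype.card ι - K)) ≤ ∑ j ∈ J, ∑ X, (f j X).length := by
    calc J.card * ((ℓ + 1) * (Fintype.card ι - K))
        = ∑ j ∈ J, (ℓ + 1) * (Fintype.card ι - K) := by rw [Finset.sum_const, smul_eq_mul]
      _ ≤ ∑ j ∈ J, ∑ X, (f j X).length := Finset.sum_le_sum hlow
  have hmain : J.card * ((ℓ + 1) * (Fintype.card ι - K)) ≤ Fintype.card ι * T :=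
    hlow'.trans hup
  have hι : 0 < Fintype.card ι := by omega
  have h2 : Fintype.card ι ≤ 2 * (Fintype.card ι - K) := by omega
  have h3 : Fintype.card ι * ((ℓ + 1) * J.card) ≤ Fintype.card ι * (2 * T) := by
    calc Fintype.card ι * ((ℓ + 1) * J.card)
        ≤ 2 * (Fintype.card ι - K) * ((ℓ + 1) * J.card) := Nat.mul_le_mul_right _ h2
      _ = 2 * (J.card * ((ℓ + 1) * (Fintype.card ι - K))) := by ring
      _ ≤ 2 * (Fintype.card ι * T) := Nat.mul_le_mul_left _ hmain
      _ = Fintype.card ι * (2 * T) := by ring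
  exact Nat.le_of_mul_le_mul_left h3 hι

end Vale.Agent.Lib.P310
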