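import Mathlib

namespace Vale.Agent.Lib.P310

/-- Colours of `k`-tuples after `r` rounds. A round `0` colour is an atomic type: for each pair of
positions, whether the two entries are equal and whether they are adjacent. A round `r + 1` colour
is a round `r` colour together with a multiset of `k`-vectors of round `r` colours. -/
def Col (k : ℕ) : ℕ → Type
  | 0 => Fin k → Fin k → Prop × Prop
  | r + 1 => Col k r × Multiset (Fin k → Col k r)

/-- The colour `C_r(x)` of a `k`-tuple `x` of vertices of `G` after `r` rounds of joint-update
refinement: `C_0(x)` is the atomic type and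
`C_(r+1)(x) = (C_r(x), multiset over y of (C_r(x[1 <- y]), ..., C_r(x[k <- y])))`. -/
noncomputable def colour {k : ℕ} {V : Type} [Fintype V] (G : SimpleGraph V) :
    (r : ℕ) → (Fin k → V) → Col k r
  | 0, x => fun i j => (x i = x j, G.Adj (x i) (x j))
  | r + 1, x => (colour G r x,
      (Finset.univ : Finset V).val.map fun y => fun i => colour G r (Function.update x i y))

/-- `k`-WL equivalence: in every round the multisets of colours of all `k`-tuples coincide. -/
def WLEquiv (k : ℕ) {V W : Type} [Fintype V] [Fintype W] (G : SimpleGraph V)
    (H : SimpleGraph W) : Prop :=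
  ∀ r : ℕ, (Finset.univ : Finset (Fin k → V)).val.map (colour G r)
    = (Finset.univ : Finset (Fin k → W)).val.map (colour H r)

/-- Head moves of a one-tape machine. -/
inductive Move : Type
  | left : Move
  | stay : Move
  | right : Move

/-- The displacement of the head caused by a move. -/
def Move.shift : Move → ℤ
  | Move.left => -1
  | Move.stay => 0
  | Move.right => 1

/-- A deterministic one-tape Turing machine with state set `Q` and tape alphabet `Γ`. The
transition function returns `none` when the machine halts; `accept` is the set of accepting
states; `bit` gives the tape symbols used for the two input bits and `blank` is the blank. -/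
structure TM (Q Γ : Type) : Type where
  delta : Q → Γ → Option (Q × Γ × Move)
  start : Q
  accept : Q → Prop
  bit : Bool → Γ
  blank : Γ

/-- A configuration: state, head position, and contents of the two-way infinite tape. -/
structure Cfg (Q Γ : Type) : Type where
  state : Q
  pos : ℤ
  tape : ℤ → Γ

/-- One step: read the scanned cell, write, change state, move by at most one cell. -/
def TM.step {Q Γ : Type} (M : TM Q Γ) (c : Cfg Q Γ) : Option (Cfg Q Γ) :=
  (M.delta c.state (c.tape c.pos)).map fun r =>
    { state := r.1, pos := c.pos + r.2.2.shift, tape := Function.update c.tape c.pos r.2.1 }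

/-- `M.HaltsIn t c q`: started in configuration `c`, the machine makes exactly `t` steps and then
halts (no transition applies) in state `q`. -/
inductive TM.HaltsIn {Q Γ : Type} (M : TM Q Γ) : ℕ → Cfg Q Γ → Q → Prop
  | done (c : Cfg Q Γ) : M.step c = none → TM.HaltsIn M 0 c c.state
  | next (c c' : Cfg Q Γ) (t : ℕ) (q : Q) : M.step c = some c' → TM.HaltsIn M t c' q →
      TM.HaltsIn M (t + 1) c q

/-- Bit number `m` of the row-major adjacency matrix of a graph on `Fin n`: the cell
`u * n + v` holds the entry `(u, v)`. -/
noncomputable def matBit {n : ℕ} (G : SimpleGraph (Fin n)) (m : ℕ) : Bool :=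
  @decide (∃ u v : Fin n, m = u.val * n + v.val ∧ G.Adj u v) (Classical.propDecidable _)

/-- The initial tape for the input `(G, H)`: cells `0, ..., n*n - 1` hold the adjacency matrix of
`G`, cells `n*n, ..., 2*n*n - 1` hold that of `H`, and all other cells are blank. -/
noncomputable def inputTape {Q Γ : Type} (M : TM Q Γ) {n : ℕ} (G H : SimpleGraph (Fin n)) :
    ℤ → Γ :=
  fun p => if p < 0 then M.blank
    else if p < (n : ℤ) * n then M.bit (matBit G p.toNat)
    else if p < 2 * ((n : ℤ) * n) then M.bit (matBit H (p.toNat - n * n))
    else M.blank

/-- The initial configuration on a given tape: start state, head on cell `0`. -/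
def TM.init {Q Γ : Type} (M : TM Q Γ) (τ : ℤ → Γ) : Cfg Q Γ :=
  { state := M.start, pos := 0, tape := τ }

/-- `M` decides `k`-WL equivalence of pairs of graphs on `n` vertices within `T` steps: on every
input pair it halts after at most `T` steps, in an accepting state exactly when the two graphs are
`k`-WL equivalent. -/
def TM.DecidesWL {Q Γ : Type} (M : TM Q Γ) (k n T : ℕ) : Prop :=
  ∀ G H : SimpleGraph (Fin n), ∃ t q, t ≤ T ∧ M.HaltsIn t (M.init (inputTape M G H)) q ∧
    (M.accept q ↔ WLEquiv k G H)

end Vale.Agent.Lib.P310
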