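import Vale.Agent.Lib.P310.Invariant

namespace Vale.Agent.Lib.P310

open Finset Classical

/-- Vertices of the pattern graph: core vertices `(side, primed, index)` and scaffold vertices. -/
abbrev PV (r : ℕ) : Type := (Bool × Bool × Fin r) ⊕ Fin (7 * r)

/-- The generating relation of the pattern graph of a Boolean matrix `X`. -/
def patRel (r : ℕ) (X : Fin r → Fin r → Bool) (a b : PV r) : Prop :=
  match a, b with
  | Sum.inl (s, p, i), Sum.inl (s', p', j) => s = false ∧ s' = true ∧ X i j = (p == p')
  | Sum.inl (s, p, i), Sum.inr c => c.val ≤ (2 * s.toNat + p.toNat) * r + i.val + 3 * r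
  | Sum.inr _, _ => False

/-- The pattern graph of `X`. -/
def patGraph (r : ℕ) (X : Fin r → Fin r → Bool) : SimpleGraph (PV r) :=
  SimpleGraph.fromRel (patRel r X)

theorem deg_eq_sum {V : Type} [Fintype V] (G : SimpleGraph V) (v : V) :
    deg G v = ∑ w, if G.Adj v w then 1 else 0 := by
  unfold deg
  rw [Finset.card_filter]

theorem card_fin_le (N m : ℕ) (h : m < N) :
    (∑ c : Fin N, if c.val ≤ m then 1 else 0) = m + 1 := by
  rw [← Finset.card_filter]
  have : (univ.filter (fun c : Fin N => c.val ≤ m)).card = (Finset.range (m + 1)).card := by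
    apply Finset.card_bij (fun c _ => c.val)
    · intro c hc
      simp only [Finset.mem_filter, Finset.mem_univ, true_and] at hc
      simp only [Finset.mem_range]; omega
    · intro a _ b _ hab; exact Fin.ext hab
    · intro b hb
      simp only [Finset.mem_range] at hb
      exact ⟨⟨b, by omega⟩, by simp only [Finset.mem_filter, Finset.mem_univ, true_and]; omega, rfl⟩
  rw [this, Finset.card_range]

theorem sum_bool_pattern (x p : Bool) :
    (∑ p' : Bool, if x = (p == p') then 1 else 0) = 1 := by
  cases x <;> cases p <;> simp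

theorem sum_bool_pattern' (x p : Bool) :
    (∑ p' : Bool, if x = (p' == p) then 1 else 0) = 1 := by
  cases x <;> cases p <;> simp

theorem patGraph_adj_inl_inl (r : ℕ) (X : Fin r → Fin r → Bool) (s p s' p' : Bool) (i j : Fin r) :
    (patGraph r X).Adj (Sum.inl (s, p, i)) (Sum.inl (s', p', j)) ↔
      (s = false ∧ s' = true ∧ X i j = (p == p')) ∨ (s' = false ∧ s = true ∧ X j i = (p' == p)) := by
  unfold patGraph
  rw [SimpleGraph.fromRel_adj]
  simp only [patRel]
  constructor
  · rintro ⟨_, h⟩; exact h
  · intro h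
    refine ⟨?_, h⟩
    intro heq
    simp only [Sum.inl.injEq, Prod.mk.injEq] at heq
    rcases h with ⟨h1, h2, _⟩ | ⟨h1, h2, _⟩
    · rw [h1, h2] at heq; exact absurd heq.1 (by simp)
    · rw [h1, h2] at heq; exact absurd heq.1 (by simp)

theorem patGraph_adj_inl_inr (r : ℕ) (X : Fin r → Fin r → Bool) (s p : Bool) (i : Fin r)
    (c : Fin (7 * r)) :
    (patGraph r X).Adj (Sum.inl (s, p, i)) (Sum.inr c) ↔
      c.val ≤ (2 * s.toNat + p.toNat) * r + i.val + 3 * r := by
  unfold patGraph
  rw [SimpleGraph.fromRel_adj]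
  simp [patRel]

theorem patGraph_adj_inr_inr (r : ℕ) (X : Fin r → Fin r → Bool) (c c' : Fin (7 * r)) :
    ¬ (patGraph r X).Adj (Sum.inr c) (Sum.inr c') := by
  unfold patGraph
  rw [SimpleGraph.fromRel_adj]
  simp [patRel]

theorem deg_core (r : ℕ) (X : Fin r → Fin r → Bool) (s p : Bool) (i : Fin r) :
    deg (patGraph r X) (Sum.inl (s, p, i)) = 4 * r + (2 * s.toNat + p.toNat) * r + i.val + 1 := by
  rw [deg_eq_sum, Fintype.sum_sum_type]
  have hr : i.val < r := i.isLt
  have hbound : (2 * s.toNat + p.toNat) * r + i.val + 3 * r < 7 * r := by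
    have : 2 * s.toNat + p.toNat ≤ 3 := by cases s <;> cases p <;> simp
    nlinarith
  have h2 : (∑ c : Fin (7 * r), if (patGraph r X).Adj (Sum.inl (s, p, i)) (Sum.inr c) then 1 else 0)
      = (2 * s.toNat + p.toNat) * r + i.val + 3 * r + 1 := by
    simp only [patGraph_adj_inl_inr]
    exact card_fin_le _ _ hbound
  have h1 : (∑ a : Bool × Bool × Fin r,
      if (patGraph r X).Adj (Sum.inl (s, p, i)) (Sum.inl a) then 1 else 0) = r := by
    rw [Fintype.sum_prod_type, Fintype.sum_bool]
    simp only [Fintype.sum_prod_type, patGraph_adj_inl_inl]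
    rw [Finset.sum_comm, Finset.sum_comm (s := (univ : Finset Bool))]
    cases s
    · simp only [Bool.false_eq_true, and_false, false_and, or_false, true_and,
        if_false, Finset.sum_const_zero, sum_bool_pattern]
      simp
    · simp only [Bool.true_eq_false, false_and, false_or, true_and,
        if_false, Finset.sum_const_zero, sum_bool_pattern']
      simp
  rw [h1, h2]
  ring

theorem deg_scaffold (r : ℕ) (X : Fin r → Fin r → Bool) (c : Fin (7 * r)) :
    deg (patGraph r X) (Sum.inr c) ≤ 4 * r := by
  rw [deg_eq_sum, Fintype.sum_sum_type]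
  have h2 : (∑ c' : Fin (7 * r), if (patGraph r X).Adj (Sum.inr c) (Sum.inr c') then 1 else 0) = 0 := by
    simp [patGraph_adj_inr_inr]
  have h1 : (∑ a : Bool × Bool × Fin r,
      if (patGraph r X).Adj (Sum.inr c) (Sum.inl a) then 1 else 0) ≤ 4 * r := by
    calc (∑ a : Bool × Bool × Fin r,
          if (patGraph r X).Adj (Sum.inr c) (Sum.inl a) then 1 else 0)
        ≤ ∑ _a : Bool × Bool × Fin r, 1 := by
          apply Finset.sum_le_sum; intro a _; split_ifs <;> simp
      _ = 4 * r := by simp; ring
  omega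

/-- The matrix can be read off from adjacency between vertices of prescribed degrees. -/
theorem pat_decode (r : ℕ) (X : Fin r → Fin r → Bool) (i j : Fin r) :
    X i j = true ↔ ∃ u v : PV r, (patGraph r X).Adj u v ∧
      deg (patGraph r X) u = 4 * r + i.val + 1 ∧ deg (patGraph r X) v = 6 * r + j.val + 1 := by
  have hi : i.val < r := i.isLt
  have hj : j.val < r := j.isLt
  constructor
  · intro h
    refine ⟨Sum.inl (false, false, i), Sum.inl (true, false, j), ?_, ?_, ?_⟩
    · rw [patGraph_adj_inl_inl]; left; simp [h]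
    · rw [deg_core]; simp
    · rw [deg_core]; simp; ring
  · rintro ⟨u, v, hadj, hu, hv⟩
    rcases u with ⟨s, p, i'⟩ | c
    · rcases v with ⟨s', p', j'⟩ | c'
      · rw [deg_core] at hu hv
        have hi' : i'.val < r := i'.isLt
        have hj' : j'.val < r := j'.isLt
        have hs : s = false ∧ p = false ∧ i' = i := by
          cases s <;> cases p <;> simp at hu <;> first | (refine ⟨rfl, rfl, Fin.ext ?_⟩; omega) | omega
        have hs' : s' = true ∧ p' = false ∧ j' = j := by
          cases s' <;> cases p' <;> simp at hv <;> first | (refine ⟨rfl, rfl, Fin.ext ?_⟩; omega) | omega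
        obtain ⟨rfl, rfl, rfl⟩ := hs
        obtain ⟨rfl, rfl, rfl⟩ := hs'
        rw [patGraph_adj_inl_inl] at hadj
        rcases hadj with ⟨_, _, h⟩ | ⟨h, _, _⟩
        · simpa using h
        · exact absurd h (by simp)
      · have := deg_scaffold r X c'
        omega
    · have := deg_scaffold r X c
      omega

theorem deg_map {V W : Type} [Fintype V] [Fintype W] (G : SimpleGraph V) (e : V ↪ W) (s : V) :
    deg (G.map e) (e s) = deg G s := by
  unfold deg
  rw [← Finset.card_image_of_injective _ e.injective]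
  congr 1
  ext w
  simp only [Finset.mem_filter, Finset.mem_univ, true_and, Finset.mem_image, SimpleGraph.map_adj]
  constructor
  · rintro ⟨u', v', hadj, hu, hv⟩
    have := e.injective hu
    subst this
    exact ⟨v', hadj, hv⟩
  · rintro ⟨t, hadj, ht⟩
    exact ⟨s, t, hadj, rfl, ht⟩

theorem card_PV (r : ℕ) : Fintype.card (PV r) = 11 * r := by
  simp [PV]; ring

/-- A family of `2 ^ (r * r)` graphs on `Fin n`, where `11 * r ≤ n`, all of whose edges lie among
the first `11 * r` vertices, and which are pairwise inequivalent under `k`-WL for every `k ≥ 2`. -/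
theorem family_exists (n r : ℕ) (hrn : 11 * r ≤ n) :
    ∃ Gr : (Fin r → Fin r → Bool) → SimpleGraph (Fin n),
    (∀ X u v, (Gr X).Adj u v → u.val < 11 * r) ∧
    (∀ (k : ℕ) X Y, WLEquiv (k + 2) (Gr X) (Gr Y) → X = Y) := by
  have hcard : Fintype.card (PV r) ≤ n := by rw [card_PV]; omega
  set e : PV r ↪ Fin n := (Fintype.equivFin (PV r)).toEmbedding.trans (Fin.castLEEmb hcard) with he
  have hval : ∀ s, (e s).val < 11 * r := by
    intro s
    have : (e s).val = (Fintype.equivFin (PV r) s).val := rfl
    rw [this, ← card_PV r]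
    exact (Fintype.equivFin (PV r) s).isLt
  refine ⟨fun X => (patGraph r X).map e, ?_, ?_⟩
  · intro X u v hadj
    rw [SimpleGraph.map_adj] at hadj
    obtain ⟨u', v', _, hu, _⟩ := hadj
    rw [← hu]; exact hval u'
  · intro k X Y hXY
    have key : ∀ (X Y : Fin r → Fin r → Bool), WLEquiv (k + 2) ((patGraph r X).map e)
        ((patGraph r Y).map e) → ∀ i j, X i j = true → Y i j = true := by
      intro X Y hXY i j hX
      obtain ⟨u, v, hadj, hu, hv⟩ := (pat_decode r X i j).1 hX
      have h1 : ∃ u' v', ((patGraph r X).map e).Adj u' v' ∧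
          deg ((patGraph r X).map e) u' = 4 * r + i.val + 1 ∧
          deg ((patGraph r X).map e) v' = 6 * r + j.val + 1 :=
        ⟨e u, e v, by rw [SimpleGraph.map_adj]; exact ⟨u, v, hadj, rfl, rfl⟩,
          by rw [deg_map, hu], by rw [deg_map, hv]⟩
      obtain ⟨u', v', hadj', hu', hv'⟩ := wl_invariant _ _ hXY _ _ h1
      rw [SimpleGraph.map_adj] at hadj'
      obtain ⟨a, b, hab, rfl, rfl⟩ := hadj'
      rw [deg_map] at hu' hv'
      exact (pat_decode r Y i j).2 ⟨a, b, hab, hu', hv'⟩
    have hsymm : WLEquiv (k + 2) ((patGraph r Y).map e) ((patGraph r X).map e) :=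
      fun q => (hXY q).symm
    funext i j
    have h1 := key X Y hXY i j
    have h2 := key Y X hsymm i j
    cases hx : X i j <;> cases hy : Y i j <;> simp_all

end Vale.Agent.Lib.P310
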