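import Vale.Agent.Lib.P310.Defs

namespace Vale.Agent.Lib.P310

variable {Q Γ : Type}

/-- Which side of the boundary between cells `j` and `j + 1` a cell lies on. -/
def side (j p : ℤ) : Bool := decide (p ≤ j)

/-- The cell where the head lands when it leaves side `σ`. -/
def entry (j : ℤ) (σ : Bool) : ℤ := if σ then j + 1 else j

/-- The crossing sequence at the boundary `j` of the first `t` steps from `c`: the states
entered by the steps that cross the boundary. -/
def TM.cross (M : TM Q Γ) (j : ℤ) : ℕ → Cfg Q Γ → List Q
  | 0, _ => []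
  | t + 1, c =>
    match M.step c with
    | none => []
    | some c' => if side j c.pos = side j c'.pos then TM.cross M j t c'
        else c'.state :: TM.cross M j t c'

theorem TM.step_eq_some {M : TM Q Γ} {c c' : Cfg Q Γ} (h : M.step c = some c') :
    ∃ q s m, M.delta c.state (c.tape c.pos) = some (q, s, m) ∧
      c' = { state := q, pos := c.pos + m.shift, tape := Function.update c.tape c.pos s } := by
  unfold TM.step at h
  cases hd : M.delta c.state (c.tape c.pos) with
  | none => rw [hd] at h; simp at h
  | some r =>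
    rw [hd] at h
    obtain ⟨q, s, m⟩ := r
    simp only [Option.map_some, Option.some.injEq] at h
    exact ⟨q, s, m, rfl, h.symm⟩

theorem TM.step_pos {M : TM Q Γ} {c c' : Cfg Q Γ} (h : M.step c = some c') :
    (c'.pos = c.pos - 1 ∨ c'.pos = c.pos ∨ c'.pos = c.pos + 1) ∧
      ∀ i, i ≠ c.pos → c'.tape i = c.tape i := by
  obtain ⟨q, s, m, _, rfl⟩ := TM.step_eq_some h
  constructor
  · cases m
    · left; simp [Move.shift]; ring
    · right; left; simp [Move.shift]
    · right; right; simp [Move.shift]
  · intro i hi
    simp [Function.update, hi]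

theorem cross_pos {j p p' : ℤ} {σ : Bool} (h1 : side j p = σ) (h2 : side j p' ≠ σ)
    (h3 : p' = p - 1 ∨ p' = p ∨ p' = p + 1) : p' = entry j σ := by
  unfold side at h1 h2
  unfold entry
  cases σ
  · simp only [decide_eq_false_iff_not, not_le, ne_eq, Bool.not_eq_false, decide_eq_true_eq] at h1 h2
    simp only [Bool.false_eq_true, if_false]
    omega
  · simp only [decide_eq_true_eq, ne_eq, Bool.not_eq_true, decide_eq_false_iff_not, not_le] at h1 h2
    simp only [if_true]
    omega

theorem TM.step_local (M : TM Q Γ) (j : ℤ) (σ : Bool) (a g : Cfg Q Γ) (hq : g.state = a.state)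
    (hp : g.pos = a.pos) (hs : side j a.pos = σ) (ht : ∀ i, side j i = σ → g.tape i = a.tape i) :
    (M.step a = none → M.step g = none) ∧
    (∀ a', M.step a = some a' → ∃ g', M.step g = some g' ∧ g'.state = a'.state ∧
      g'.pos = a'.pos ∧ (∀ i, side j i = σ → g'.tape i = a'.tape i) ∧
      (∀ i, side j i ≠ σ → g'.tape i = g.tape i) ∧
      (∀ i, side j i ≠ σ → a'.tape i = a.tape i)) := by
  have hsym : g.tape g.pos = a.tape a.pos := by rw [hp]; exact ht _ hs
  constructor
  · intro h
    unfold TM.step at h ⊢
    rw [hq, hsym]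
    rw [Option.map_eq_none_iff] at h ⊢
    exact h
  · intro a' h
    obtain ⟨q, s, m, hd, rfl⟩ := TM.step_eq_some h
    refine ⟨{ state := q, pos := g.pos + m.shift, tape := Function.update g.tape g.pos s },
      ?_, rfl, ?_, ?_, ?_, ?_⟩
    · unfold TM.step; rw [hq, hsym, hd]; rfl
    · simp [hp]
    · intro i hi
      by_cases hia : i = a.pos
      · subst hia; simp [hp]
      · simp only [Function.update, hp, hia, dite_false]; exact ht i hi
    · intro i hi
      have : i ≠ g.pos := by rintro rfl; rw [hp] at hi; exact hi hs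
      simp [Function.update, this]
    · intro i hi
      have : i ≠ a.pos := by rintro rfl; exact hi hs
      simp [Function.update, this]

theorem TM.advance (M : TM Q Γ) (j : ℤ) (σ : Bool) : ∀ (t : ℕ) (b : Cfg Q Γ) (qb q : Q)
    (rest : List Q), M.HaltsIn t b qb → side j b.pos = σ → M.cross j t b = q :: rest →
    ∃ (t' : ℕ) (b' : Cfg Q Γ), t' < t ∧ M.HaltsIn t' b' qb ∧ b'.state = q ∧
      side j b'.pos ≠ σ ∧ b'.pos = entry j σ ∧ (∀ i, side j i ≠ σ → b'.tape i = b.tape i) ∧
      M.cross j t' b' = rest := by
  intro t
  induction t with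
  | zero => intro b qb q rest _ _ hc; simp [TM.cross] at hc
  | succ t ih =>
    intro b qb q rest hh hs hc
    cases hh with
    | next _ b1 _ _ hstep hrest =>
      simp only [TM.cross, hstep] at hc
      have hpos := TM.step_pos hstep
      by_cases hside : side j b.pos = side j b1.pos
      · rw [if_pos hside] at hc
        obtain ⟨t', b', hlt, hh', hq', hs', hp', htape', hc'⟩ :=
          ih b1 qb q rest hrest (hside ▸ hs) hc
        refine ⟨t', b', by omega, hh', hq', hs', hp', ?_, hc'⟩
        intro i hi
        rw [htape' i hi]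
        exact hpos.2 i (by rintro rfl; exact hi hs)
      · rw [if_neg hside] at hc
        injection hc with h1 h2
        have hs1 : side j b1.pos ≠ σ := by rw [← hs]; exact fun h => hside h.symm
        refine ⟨t, b1, by omega, hrest, h1, hs1, cross_pos hs hs1 hpos.1, ?_, h2⟩
        intro i hi
        exact hpos.2 i (by rintro rfl; exact hi hs)

theorem bool_ne_not (x σ : Bool) : x ≠ σ ↔ x = !σ := by cases x <;> cases σ <;> simp

theorem bool_ne_not' (x σ : Bool) : x ≠ (!σ) ↔ x = σ := by cases x <;> cases σ <;> simp

/-- Gluing two halting runs with the same crossing sequence at the boundary `j`. -/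
theorem TM.glue (M : TM Q Γ) (j : ℤ) : ∀ (N ta tb : ℕ) (σ : Bool) (a b g : Cfg Q Γ) (qa qb : Q),
    ta + tb < N → M.HaltsIn ta a qa → M.HaltsIn tb b qb → side j a.pos = σ → side j b.pos = σ →
    g.state = a.state → g.pos = a.pos → (∀ i, side j i = σ → g.tape i = a.tape i) →
    (∀ i, side j i ≠ σ → g.tape i = b.tape i) → M.cross j ta a = M.cross j tb b →
    ∃ tg qg, M.HaltsIn tg g qg ∧ (qg = qa ∨ qg = qb) := by
  intro N
  induction N with
  | zero => intro ta tb σ a b g qa qb hN; omega
  | succ N ih =>
    intro ta tb σ a b g qa qb hN ha hb hsa hsb hq hp hta htb hc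
    cases ha with
    | done _ hstep =>
      exact ⟨0, g.state, TM.HaltsIn.done g ((M.step_local j σ a g hq hp hsa hta).1 hstep),
        Or.inl hq⟩
    | next _ a' t _ hstep hrest =>
      obtain ⟨g', hg, hq', hp', hta', hgt, hat⟩ :=
        (M.step_local j σ a g hq hp hsa hta).2 a' hstep
      simp only [TM.cross, hstep] at hc
      by_cases hside : side j a.pos = side j a'.pos
      · rw [if_pos hside] at hc
        obtain ⟨tg, qg, hh, hor⟩ := ih t tb σ a' b g' qa qb (by omega) hrest hb (hside ▸ hsa) hsb
          hq' hp' hta' (fun i hi => (hgt i hi).trans (htb i hi)) hc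
        exact ⟨tg + 1, qg, TM.HaltsIn.next g g' tg qg hg hh, hor⟩
      · rw [if_neg hside] at hc
        obtain ⟨t', b', hlt, hh', hqb', hsb', hpb', htapeb', hc'⟩ :=
          M.advance j σ tb b qb a'.state (M.cross j t a') hb hsb hc.symm
        have hsa' : side j a'.pos ≠ σ := by rw [← hsa]; exact fun h => hside h.symm
        have hpa' : a'.pos = entry j σ := cross_pos hsa hsa' (TM.step_pos hstep).1
        obtain ⟨tg, qg, hh, hor⟩ := ih t' t (!σ) b' a' g' qb qa (by omega) hh' hrest
          ((bool_ne_not _ _).1 hsb') ((bool_ne_not _ _).1 hsa') (hq'.trans hqb'.symm)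
          (hp'.trans (hpa'.trans hpb'.symm))
          (fun i hi => by
            have hi' : side j i ≠ σ := (bool_ne_not _ _).2 hi
            rw [hgt i hi', htb i hi', htapeb' i hi'])
          (fun i hi => hta' i ((bool_ne_not' _ _).1 hi)) hc'
        exact ⟨tg + 1, qg, TM.HaltsIn.next g g' tg qg hg hh, hor.symm⟩

theorem TM.HaltsIn.unique {M : TM Q Γ} : ∀ {t t' : ℕ} {c : Cfg Q Γ} {q q' : Q},
    M.HaltsIn t c q → M.HaltsIn t' c q' → t = t' ∧ q = q' := by
  intro t t' c q q' h
  induction h generalizing t' q' with
  | done c hstep =>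
    intro h'
    cases h' with
    | done _ _ => exact ⟨rfl, rfl⟩
    | next _ c' _ _ hstep' _ => rw [hstep] at hstep'; cases hstep'
  | next c c' t q hstep _ ih =>
    intro h'
    cases h' with
    | done _ hstep' => rw [hstep] at hstep'; cases hstep'
    | next _ c'' t'' _ hstep' hrest' =>
      rw [hstep] at hstep'
      cases hstep'
      obtain ⟨h1, h2⟩ := ih hrest'
      exact ⟨by omega, h2⟩

theorem TM.sum_cross_le (M : TM Q Γ) (J : Finset ℤ) : ∀ (t : ℕ) (c : Cfg Q Γ),
    ∑ j ∈ J, (M.cross j t c).length ≤ t := by
  intro t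
  induction t with
  | zero => intro c; simp [TM.cross]
  | succ t ih =>
    intro c
    cases hstep : M.step c with
    | none => simp [TM.cross, hstep]
    | some c' =>
      have hpos := (TM.step_pos hstep).1
      have h1 : ∀ j ∈ J, (M.cross j (t + 1) c).length
          = (if side j c.pos = side j c'.pos then 0 else 1) + (M.cross j t c').length := by
        intro j _
        simp only [TM.cross, hstep]
        split_ifs <;> simp [Nat.add_comm]
      rw [Finset.sum_congr rfl h1, Finset.sum_add_distrib]
      have h2 : ∑ j ∈ J, (if side j c.pos = side j c'.pos then 0 else 1) ≤ 1 := by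
        rw [Finset.sum_ite, Finset.sum_const_zero, zero_add, Finset.sum_const, smul_eq_mul, mul_one]
        rw [Finset.card_le_one]
        intro x hx y hy
        simp only [Finset.mem_filter, side, decide_eq_decide] at hx hy
        omega
      have h3 := ih c'
      omega

end Vale.Agent.Lib.P310
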