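import Vale.Agent.Lib.P310.Defs

namespace Vale.Agent.Lib.P310

open Finset Classical

/-- The degree of a vertex, as the number of its neighbours. -/
noncomputable def deg {V : Type} [Fintype V] (G : SimpleGraph V) (v : V) : ℕ :=
  (univ.filter (fun w => G.Adj v w)).card

theorem card_filter_map_val {V α : Type} [Fintype V] (F : V → α) (φ : α → Prop) :
    Multiset.card (((univ : Finset V).val.map F).filter φ) = (univ.filter (fun w => φ (F w))).card := by
  rw [Multiset.filter_map, Multiset.card_map]
  rfl

/-- Two adjacent vertices with prescribed degrees: an invariant of the round `1` colours. -/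
theorem wl_invariant {k : ℕ} {V W : Type} [Fintype V] [Fintype W] (G : SimpleGraph V)
    (H : SimpleGraph W) (h : WLEquiv (k + 2) G H) (d d' : ℕ)
    (hG : ∃ u v, G.Adj u v ∧ deg G u = d ∧ deg G v = d') :
    ∃ u v, H.Adj u v ∧ deg H u = d ∧ deg H v = d' := by
  obtain ⟨u, v, huv, hu, hv⟩ := hG
  set x : Fin (k + 2) → V := fun i => if i = 0 then u else v with hx
  have hx0 : x 0 = u := by simp [hx]
  have hx1 : x 1 = v := by simp [hx]
  have hmem : colour G 1 x ∈ (univ : Finset (Fin (k + 2) → W)).val.map (colour H 1) := by
    rw [← h 1]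
    exact Multiset.mem_map_of_mem _ (Finset.mem_univ_val x)
  obtain ⟨y, _, hy⟩ := Multiset.mem_map.1 hmem
  have h01 : (1 : Fin (k + 2)) ≠ 0 := by
    intro h; exact absurd (congrArg Fin.val h) (by simp)
  have hcol : ∀ {U : Type} [Fintype U] (K : SimpleGraph U) (z : Fin (k + 2) → U),
      colour K 1 z = (colour K 0 z,
        (univ : Finset U).val.map fun w => fun i => colour K 0 (Function.update z i w)) := by
    intro U _ K z; rfl
  rw [hcol, hcol] at hy
  have hfst := congrArg Prod.fst hy
  have hsnd := congrArg Prod.snd hy
  simp only at hfst hsnd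
  have hadj : H.Adj (y 0) (y 1) := by
    have := congrFun (congrFun hfst 0) 1
    have h2 : (colour H 0 y 0 1).2 = (colour G 0 x 0 1).2 := congrArg Prod.snd this
    have h3 : H.Adj (y 0) (y 1) = G.Adj (x 0) (x 1) := h2
    rw [h3, hx0, hx1]; exact huv
  have hdeg0 : deg H (y 0) = deg G (x 0) := by
    have hc := congrArg (fun m : Multiset (Fin (k + 2) → Col (k + 2) 0) =>
      Multiset.card (m.filter (fun f => (f 1 0 1).2))) hsnd
    beta_reduce at hc
    rw [card_filter_map_val, card_filter_map_val] at hc
    have e1 : ∀ w : W, (colour H 0 (Function.update y 1 w) 0 1).2 = H.Adj (y 0) w := by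
      intro w
      show H.Adj (Function.update y 1 w 0) (Function.update y 1 w 1) = H.Adj (y 0) w
      rw [Function.update_of_ne h01.symm, Function.update_self]
    have e2 : ∀ w : V, (colour G 0 (Function.update x 1 w) 0 1).2 = G.Adj (x 0) w := by
      intro w
      show G.Adj (Function.update x 1 w 0) (Function.update x 1 w 1) = G.Adj (x 0) w
      rw [Function.update_of_ne h01.symm, Function.update_self]
    simp only [e1, e2] at hc
    exact hc
  have hdeg1 : deg H (y 1) = deg G (x 1) := by
    have hc := congrArg (fun m : Multiset (Fin (k + 2) → Col (k + 2) 0) =>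
      Multiset.card (m.filter (fun f => (f 0 0 1).2))) hsnd
    beta_reduce at hc
    rw [card_filter_map_val, card_filter_map_val] at hc
    have e1 : ∀ w : W, (colour H 0 (Function.update y 0 w) 0 1).2 = H.Adj (y 1) w := by
      intro w
      show H.Adj (Function.update y 0 w 0) (Function.update y 0 w 1) = H.Adj (y 1) w
      rw [Function.update_of_ne h01, Function.update_self]
      exact propext ⟨fun h => h.symm, fun h => h.symm⟩
    have e2 : ∀ w : V, (colour G 0 (Function.update x 0 w) 0 1).2 = G.Adj (x 1) w := by
      intro w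
      show G.Adj (Function.update x 0 w 0) (Function.update x 0 w 1) = G.Adj (x 1) w
      rw [Function.update_of_ne h01, Function.update_self]
      exact propext ⟨fun h => h.symm, fun h => h.symm⟩
    simp only [e1, e2] at hc
    exact hc
  exact ⟨y 0, y 1, hadj, by rw [hdeg0, hx0, hu], by rw [hdeg1, hx1, hv]⟩

end Vale.Agent.Lib.P310
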