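import Vale.Agent.Lib.P310.Count
import Vale.Agent.Lib.P310.Family

namespace Vale.Agent.Lib.P310

theorem matBit_false_of_ge {n : ℕ} (G : SimpleGraph (Fin n)) (m0 : ℕ)
    (hG : ∀ u v, G.Adj u v → u.val < m0) (m : ℕ) (hm : m0 * n ≤ m) : matBit G m = false := by
  unfold matBit
  rw [decide_eq_false_iff_not]
  rintro ⟨u, v, rfl, hadj⟩
  have h1 := hG u v hadj
  have hv := v.isLt
  have h2 : (u.val + 1) * n ≤ m0 * n := Nat.mul_le_mul_right n h1
  nlinarith

theorem wlEquiv_refl (k : ℕ) {V : Type} [Fintype V] (G : SimpleGraph V) : WLEquiv k G G :=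
  fun _ => rfl

theorem lower_aux (k' n r b T : ℕ) (Q Γ : Type) [Fintype Q] (M : TM Q Γ) (hn : 22 * r ≤ n)
    (hb : Fintype.card Q + 1 ≤ 2 ^ b) (hM : M.DecidesWL (k' + 2) n T) :
    r ^ 2 * n ^ 2 ≤ 4 * b * T := by
  obtain ⟨Gr, hrow, hinj⟩ := family_exists n r (by omega)
  by_cases hr0 : r = 0
  · simp [hr0]
  have hrpos : 0 < r := Nat.pos_of_ne_zero hr0
  have hb0 : 0 < b := by
    rcases Nat.eq_zero_or_pos b with h | h
    · subst h
      have : 0 < Fintype.card Q := Fintype.card_pos_iff.2 ⟨M.start⟩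
      simp at hb
      omega
    · exact h
  have hr1 : 1 ≤ r ^ 2 := Nat.one_le_pow _ _ hrpos
  obtain ⟨ℓ, hℓ⟩ : ∃ ℓ, ℓ = (r ^ 2 - 1) / b := ⟨_, rfl⟩
  have hℓ1 : b * ℓ + 1 ≤ r ^ 2 := by
    have := Nat.mul_div_le (r ^ 2 - 1) b
    rw [← hℓ] at this
    omega
  have hℓ2 : r ^ 2 ≤ (ℓ + 1) * b := by
    have h1 := Nat.div_add_mod (r ^ 2 - 1) b
    have h2 := Nat.mod_lt (r ^ 2 - 1) hb0
    rw [← hℓ] at h1
    have h3 : (ℓ + 1) * b = b * ℓ + b := by ring
    rw [h3]
    omega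
  have hJle : 11 * r * n ≤ n * n := by nlinarith
  have key := M.fooling (fun X => inputTape M (Gr X) (Gr X))
    (Finset.Ico ((11 * r * n : ℕ) : ℤ) ((n * n : ℕ) : ℤ)) T ℓ ?_ ?_ ?_ ?_
  · rw [Int.card_Ico, Int.toNat_sub] at key
    have h2J : n * n ≤ 2 * (n * n - 11 * r * n) := by
      have : 22 * r * n ≤ n * n := Nat.mul_le_mul_right n hn
      have h5 : 22 * r * n = 2 * (11 * r * n) := by ring
      omega
    calc r ^ 2 * n ^ 2 = r ^ 2 * (n * n) := by ring
      _ ≤ (ℓ + 1) * b * (2 * (n * n - 11 * r * n)) := Nat.mul_le_mul hℓ2 h2J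
      _ = 2 * b * ((ℓ + 1) * (n * n - 11 * r * n)) := by ring
      _ ≤ 2 * b * (2 * T) := Nat.mul_le_mul_left _ key
      _ = 4 * b * T := by ring
  · intro j hj
    rw [Finset.mem_Ico] at hj
    exact le_trans (Int.natCast_nonneg _) hj.1
  · intro X
    obtain ⟨t, q, ht, hh, hiff⟩ := hM (Gr X) (Gr X)
    exact ⟨t, q, ht, hh, hiff.2 (wlEquiv_refl _ _)⟩
  · intro X Y hne j hj σ hσ1 hσ2 t q hh hacc
    rw [Finset.mem_Ico] at hj
    have hσ : σ = inputTape M (Gr X) (Gr Y) := by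
      funext p
      by_cases hp : p ≤ j
      · rw [hσ1 p hp]
        have hpn : p < (n : ℤ) * n := by
          have := hj.2
          push_cast at this
          omega
        unfold inputTape
        by_cases hp0 : p < 0
        · simp [hp0]
        · simp [hp0, hpn]
      · rw [hσ2 p (by omega)]
        have hp0 : ¬ p < 0 := by
          have := hj.1
          have h0 : (0 : ℤ) ≤ ((11 * r * n : ℕ) : ℤ) := Int.natCast_nonneg _
          omega
        unfold inputTape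
        by_cases hpn : p < (n : ℤ) * n
        · have hge : 11 * r * n ≤ p.toNat := by
            have := hj.1
            omega
          have e1 : matBit (Gr X) p.toNat = false :=
            matBit_false_of_ge (Gr X) (11 * r) (hrow X) _ hge
          have e2 : matBit (Gr Y) p.toNat = false :=
            matBit_false_of_ge (Gr Y) (11 * r) (hrow Y) _ hge
          simp [hp0, hpn, e1, e2]
        · simp [hp0, hpn]
    rw [hσ] at hh
    obtain ⟨t', q', _, hh', hiff⟩ := hM (Gr X) (Gr Y)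
    obtain ⟨_, hq⟩ := TM.HaltsIn.unique hh hh'
    rw [hq] at hacc
    exact hne (hinj k' X Y (hiff.1 hacc))
  · have hcard : Fintype.card (Fin r → Fin r → Bool) = 2 ^ (r ^ 2) := by
      simp only [Fintype.card_fun, Fintype.card_bool, Fintype.card_fin]
      rw [← pow_mul, pow_two]
    rw [hcard]
    calc 2 * (Fintype.card Q + 1) ^ ℓ ≤ 2 * (2 ^ b) ^ ℓ :=
          Nat.mul_le_mul_left _ (Nat.pow_le_pow_left hb ℓ)
      _ = 2 ^ (b * ℓ + 1) := by rw [← pow_mul, pow_succ]; ring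
      _ ≤ 2 ^ (r ^ 2) := Nat.pow_le_pow_right (by norm_num) hℓ1

/-- A one-tape machine with state set `Q`, where `|Q| + 1 ≤ 2 ^ b`, that decides `k`-WL equivalence
(`k ≥ 2`) of pairs of `n`-vertex graphs within `T` steps satisfies
`(n / 22) ^ 2 * n ^ 2 ≤ 4 * b * T`. -/
theorem one_tape_lower_bound (k n b T : ℕ) (Q Γ : Type) [Fintype Q] (M : TM Q Γ) (hk : 2 ≤ k)
    (hb : Fintype.card Q + 1 ≤ 2 ^ b) (hM : M.DecidesWL k n T) :
    (n / 22) ^ 2 * n ^ 2 ≤ 4 * b * T := by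
  obtain ⟨k', rfl⟩ : ∃ k', k = k' + 2 := ⟨k - 2, by omega⟩
  exact lower_aux k' n (n / 22) b T Q Γ M (Nat.mul_div_le n 22) hb hM

end Vale.Agent.Lib.P310
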